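import Vale.Agent.P249.MathlibUsed

open MeasureTheory
open scoped ENNReal

namespace Vale.Agent.P249

/-- The map `f` has distortion at most `D` on the finite set `X`: for some scale `s > 0`,
`s ‖x - y‖ ≤ ‖f x - f y‖ ≤ D s ‖x - y‖` for all `x, y ∈ X`. -/
def DistortionAtMost {A B : Type*} [NormedAddCommGroup A] [NormedAddCommGroup B]
    (X : Finset A) (f : A → B) (D : ℝ) : Prop :=
  ∃ s : ℝ, 0 < s ∧ ∀ x ∈ X, ∀ y ∈ X,
    s * ‖x - y‖ ≤ ‖f x - f y‖ ∧ ‖f x - f y‖ ≤ D * s * ‖x - y‖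

/-- Every `n`-point subset of every `L_p` space admits a map into `ℓ_p^d` of distortion at
most `D`. -/
def Admissible (p : ℝ≥0∞) [Fact (1 ≤ p)] (n : ℕ) (D : ℝ) (d : ℕ) : Prop :=
  ∀ (Ω : Type) [MeasurableSpace Ω] (μ : Measure Ω) (X : Finset (Lp ℝ p μ)), X.card = n →
    ∃ f : Lp ℝ p μ → PiLp p (fun _ : Fin d => ℝ), DistortionAtMost X f D

/-- `d_p(n, D)`: the least `d` such that every `n`-point subset of every `L_p` space admits a map
into `ℓ_p^d` with distortion at most `D`. -/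
noncomputable def dimLp (p : ℝ≥0∞) [Fact (1 ≤ p)] (n : ℕ) (D : ℝ) : ℕ :=
  sInf {d : ℕ | Admissible p n D d}

end Vale.Agent.P249
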