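import Mathlib.Algebra.Module.ZLattice.Basic
import Mathlib.Algebra.Order.Ring.Star
import Mathlib.Algebra.Order.Star.Real
import Mathlib.Algebra.Ring.Action.Pointwise.Finset
import Mathlib.Algebra.Ring.IsFormallyReal
import Mathlib.Analysis.CStarAlgebra.Classes
import Mathlib.Analysis.Calculus.Rademacher
import Mathlib.Analysis.Complex.ExponentialBounds
import Mathlib.Analysis.Complex.Polynomial.Basic
import Mathlib.Analysis.Convex.SpecificFunctions.Pow
import Mathlib.Analysis.Real.Pi.Bounds
import Mathlib.Analysis.SpecialFunctions.Gaussian.FourierTransform
import Mathlib.Analysis.SpecialFunctions.Trigonometric.Series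
import Mathlib.Computability.Reduce
import Mathlib.Data.Finset.DenselyOrdered
import Mathlib.Data.Int.Log
import Mathlib.Data.Nat.Dist
import Mathlib.Dynamics.Ergodic.Action.Regular
import Mathlib.RingTheory.Etale.Weakly
import Mathlib.RingTheory.Flat.TorsionFree
import Mathlib.RingTheory.PicardGroup
import Mathlib.RingTheory.SimpleRing.Principal
import Mathlib.RingTheory.TotallySplit
import Mathlib.Tactic
import Mathlib.Topology.Separation.CompletelyRegular

/-! The part of Mathlib that the development of this folder uses. -/
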